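import Mathlib

/-! Shared definitions for the proof that the irrationality exponent of pi is two. -/

namespace Vale.Agent.P021

open MvPolynomial

/-- Weight of an exponent vector. -/
def wt {ι : Type*} [Fintype ι] (w : ι → ℝ) (α : ι →₀ ℕ) : ℝ := ∑ i, (α i : ℝ) * w i

/-- Number of exponent vectors of weight below `L`. -/
noncomputable def cnt {ι : Type*} [Fintype ι] (w : ι → ℝ) (L : ℝ) : ℕ :=
  {α : ι →₀ ℕ | wt w α < L}.ncard

/-- Apply a word of linear operators, head letter first. -/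
def wordAct {A ι : Type*} [AddCommGroup A] [Module ℂ A] (X : ι → A →ₗ[ℂ] A) :
    List ι → A →ₗ[ℂ] A
  | [] => LinearMap.id
  | i :: β => (wordAct X β).comp (X i)

/-- Weight of a word. -/
def wtWord {ι : Type*} (v : ι → ℝ) (β : List ι) : ℝ := (β.map v).sum

/-- The polynomial ring in `y` (index `none`) and `x i` (index `some i`). -/
abbrev Rg (m : ℕ) : Type := MvPolynomial (Option (Fin m)) ℂ

/-- The derivations `y d/dy + sum c i d/dx i` and `d/dx i`. -/
noncomputable def der {m : ℕ} (c : Fin m → ℂ) : Option (Fin m) → Rg m →ₗ[ℂ] Rg m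
  | none => (mkDerivation ℂ (fun o : Option (Fin m) =>
      o.elim (X none : Rg m) (fun i => C (c i)))).toLinearMap
  | some i => (pderiv (some i) : Derivation ℂ (Rg m) (Rg m)).toLinearMap

/-- The truncated logarithm `u - u^2/2 + ...` with `n` terms, in the variable `X none`. -/
noncomputable def logPoly (m n : ℕ) : Rg m :=
  ∑ l ∈ Finset.range n, C ((-1 : ℂ) ^ l / ((l : ℂ) + 1)) * X none ^ (l + 1)

/-- Local coordinates at the point `y = 1`, `x = k * θ`. -/
noncomputable def chart {m : ℕ} (θ c : Fin m → ℂ) (n : Fin m → ℕ) (k : ℕ) :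
    Rg m →ₐ[ℂ] Rg m :=
  aeval fun o : Option (Fin m) =>
    o.elim (1 + X none) (fun i => C ((k : ℂ) * θ i) + X (some i) + C (c i) * logPoly m (n i))

@[simp] theorem wordAct_nil {A ι : Type*} [AddCommGroup A] [Module ℂ A] (X : ι → A →ₗ[ℂ] A)
    (f : A) : wordAct X [] f = f := rfl

@[simp] theorem wordAct_cons {A ι : Type*} [AddCommGroup A] [Module ℂ A] (X : ι → A →ₗ[ℂ] A)
    (i : ι) (β : List ι) (f : A) : wordAct X (i :: β) f = wordAct X β (X i f) := rfl

theorem wordAct_append {A ι : Type*} [AddCommGroup A] [Module ℂ A] (X : ι → A →ₗ[ℂ] A)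
    (β γ : List ι) (f : A) : wordAct X (β ++ γ) f = wordAct X γ (wordAct X β f) := by
  induction β generalizing f with
  | nil => rfl
  | cons i β ih => simp [ih]

@[simp] theorem wtWord_nil {ι : Type*} (v : ι → ℝ) : wtWord v [] = 0 := rfl

@[simp] theorem wtWord_cons {ι : Type*} (v : ι → ℝ) (i : ι) (β : List ι) :
    wtWord v (i :: β) = v i + wtWord v β := by simp [wtWord]

theorem wtWord_append {ι : Type*} (v : ι → ℝ) (β γ : List ι) :
    wtWord v (β ++ γ) = wtWord v β + wtWord v γ := by simp [wtWord]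

theorem wt_add {ι : Type*} [Fintype ι] (w : ι → ℝ) (α β : ι →₀ ℕ) :
    wt w (α + β) = wt w α + wt w β := by
  simp [wt, add_mul, Finset.sum_add_distrib]

@[simp] theorem wt_zero {ι : Type*} [Fintype ι] (w : ι → ℝ) : wt w 0 = 0 := by simp [wt]

theorem wt_single {ι : Type*} [Fintype ι] (w : ι → ℝ) (i : ι) (a : ℕ) :
    wt w (Finsupp.single i a) = a * w i := by
  classical
  unfold wt
  rw [Finset.sum_eq_single i]
  · simp
  · intro j _ hj
    simp [Finsupp.single_apply, Ne.symm hj]
  · simp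

theorem wt_nonneg {ι : Type*} [Fintype ι] {w : ι → ℝ} (hw : ∀ i, 0 < w i) (α : ι →₀ ℕ) :
    0 ≤ wt w α :=
  Finset.sum_nonneg fun i _ => mul_nonneg (Nat.cast_nonneg _) (hw i).le

end Vale.Agent.P021
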